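import Mathlib

/-!
Viscosity infinity-supersolutions: cone comparison and the two-point gradient inequality.
-/

open Set Filter Topology Metric
open scoped InnerProductSpace Gradient

namespace Vale.Agent.P080

variable {E : Type} [NormedAddCommGroup E] [InnerProductSpace ℝ E] [CompleteSpace E]

/-- The infinity Laplacian of `φ` at `z`. -/
noncomputable def infLap (φ : E → ℝ) (z : E) : ℝ :=
  iteratedFDeriv ℝ 2 φ z ![gradient φ z, gradient φ z]

/-- Viscosity supersolutions of the infinity Laplace equation. -/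
def IsInfSuper (u : E → ℝ) (Ω : Set E) : Prop :=
  ∀ z ∈ Ω, ∀ φ : E → ℝ, ContDiffAt ℝ 2 φ z →
    IsLocalMin (fun y => u y - φ y) z → infLap φ z ≤ 0

/-- Viscosity subsolutions of the infinity Laplace equation. -/
def IsInfSub (u : E → ℝ) (Ω : Set E) : Prop :=
  ∀ z ∈ Ω, ∀ φ : E → ℝ, ContDiffAt ℝ 2 φ z →
    IsLocalMax (fun y => u y - φ y) z → 0 ≤ infLap φ z

theorem IsInfSuper.mono {u : E → ℝ} {Ω Ω' : Set E} (h : IsInfSuper u Ω) (hs : Ω' ⊆ Ω) :
    IsInfSuper u Ω' :=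
  fun z hz => h z (hs hz)

theorem IsInfSub.neg {u : E → ℝ} {Ω : Set E} (h : IsInfSub u Ω) :
    IsInfSuper (fun y => -u y) Ω := by
  intro z hz φ hφ hmin
  have hmax : IsLocalMax (fun y => u y - (fun y => -φ y) y) z := by
    filter_upwards [hmin] with y hy
    linarith
  have h0 := h z hz (fun y => -φ y) hφ.neg hmax
  have hg : gradient (fun y => -φ y) z = -gradient φ z := by
    simp [gradient, fderiv_neg]
  unfold infLap at h0 ⊢
  rw [iteratedFDeriv_two_apply] at h0 ⊢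
  simp only [Matrix.cons_val_zero, Matrix.cons_val_one] at h0 ⊢
  rw [hg] at h0
  have h1 : fderiv ℝ (fun y => -φ y) = fun y => -fderiv ℝ φ y := by
    funext y; exact fderiv_neg
  rw [h1, fderiv_fun_neg] at h0
  simp at h0
  linarith

/-- The infinity Laplacian through a gradient field. -/
theorem infLap_eq_of_gradient {φ : E → ℝ} {G : E → E} {G' : E →L[ℝ] E} {z : E}
    (hG : ∀ᶠ y in 𝓝 z, HasGradientAt φ (G y) y) (hG' : HasFDerivAt G G' z) :
    infLap φ z = ⟪G' (G z), G z⟫_ℝ := by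
  have hgz : gradient φ z = G z := hG.self_of_nhds.gradient
  have hev : fderiv ℝ φ =ᶠ[𝓝 z] fun y => innerSL ℝ (G y) := by
    filter_upwards [hG] with y hy
    ext w
    rw [hy.fderiv_apply]
    rfl
  unfold infLap
  rw [iteratedFDeriv_two_apply, hgz, hev.fderiv_eq]
  simp only [Matrix.cons_val_zero, Matrix.cons_val_one]
  have h := ((innerSL ℝ (E := E)).hasFDerivAt (x := G z)).comp z hG'
  rw [show (fun y => innerSL ℝ (G y)) = (innerSL ℝ (E := E)) ∘ G from rfl, h.fderiv]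
  rfl

/-- The strict cone `-β |w| + η |w|²` is a strict subsolution away from its vertex. -/
theorem cone_infLap_pos {x z : E} (hz : z ≠ x) {a β η : ℝ} (hη : 0 < η)
    (hne : 2 * η * ‖z - x‖ < β) :
    ContDiffAt ℝ 2 (fun y => a - β * ‖y - x‖ + η * ‖y - x‖ ^ 2) z ∧
      0 < infLap (fun y => a - β * ‖y - x‖ + η * ‖y - x‖ ^ 2) z := by
  have hw : z - x ≠ 0 := sub_ne_zero.2 hz
  have hs : ContDiffAt ℝ 2 (fun y : E => y - x) z := contDiffAt_id.sub contDiffAt_const
  refine ⟨((contDiffAt_const.sub (contDiffAt_const.mul (hs.norm ℝ hw))).add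
    (contDiffAt_const.mul (hs.norm_sq ℝ))), ?_⟩
  set G : E → E := fun y => (-(β / ‖y - x‖) + 2 * η) • (y - x) with hGdef
  have hG : ∀ᶠ y in 𝓝 z, HasGradientAt (fun y => a - β * ‖y - x‖ + η * ‖y - x‖ ^ 2) (G y) y := by
    filter_upwards [isOpen_compl_singleton.mem_nhds (show z ∈ ({x} : Set E)ᶜ by simpa using hz)]
      with y hy
    have hy' : y - x ≠ 0 := sub_ne_zero.2 (by simpa using hy)
    have hn : ‖y - x‖ ≠ 0 := norm_ne_zero_iff.2 hy'
    have h1 : HasFDerivAt (fun y : E => ‖y - x‖ ^ 2) (2 • innerSL ℝ (y - x)) y := by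
      simpa using ((hasFDerivAt_id y).sub_const x).norm_sq
    have h2 := h1.sqrt (pow_ne_zero 2 hn)
    simp only [Real.sqrt_sq (norm_nonneg _)] at h2
    have h3 := ((h2.const_mul β).const_sub a).add (h1.const_mul η)
    rw [hasGradientAt_iff_hasFDerivAt]
    refine h3.congr_fderiv ?_
    ext v
    simp [hGdef, inner_smul_left]
    field_simp
  have hGd : DifferentiableAt ℝ G z := by
    have hn : DifferentiableAt ℝ (fun y : E => ‖y - x‖) z :=
      (hs.norm ℝ hw).differentiableAt (by norm_num)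
    have hd : DifferentiableAt ℝ (fun y : E => β / ‖y - x‖) z := by
      simpa [div_eq_mul_inv] using (hn.inv (norm_ne_zero_iff.2 hw)).const_mul β
    have hd2 : DifferentiableAt ℝ (fun y : E => -(β / ‖y - x‖) + 2 * η) z :=
      hd.neg.add_const _
    exact hd2.smul (differentiableAt_id.sub_const x)
  have hrad : fderiv ℝ G z (z - x) = (2 * η) • (z - x) := by
    have hline : HasDerivAt (fun t : ℝ => z + t • (z - x)) (z - x) 0 := by
      simpa using ((hasDerivAt_id (0 : ℝ)).smul_const (z - x)).const_add z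
    have h1 : HasDerivAt (fun t : ℝ => G (z + t • (z - x))) (fderiv ℝ G z (z - x)) 0 :=
      HasFDerivAt.comp_hasDerivAt_of_eq 0 hGd.hasFDerivAt hline (by simp)
    have h2 : HasDerivAt (fun t : ℝ => (-(β / ‖z - x‖) + 2 * η * (1 + t)) • (z - x))
        ((2 * η) • (z - x)) 0 := by
      have := ((((hasDerivAt_id (0 : ℝ)).const_add 1).const_mul (2 * η)).const_add
        (-(β / ‖z - x‖))).smul_const (z - x)
      simpa using this
    refine h1.unique (h2.congr_of_eventuallyEq ?_)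
    have hmem : Ioi (-1 : ℝ) ∈ 𝓝 (0 : ℝ) := Ioi_mem_nhds (by norm_num)
    filter_upwards [hmem] with t ht
    have ht' : 0 < 1 + t := by linarith [mem_Ioi.1 ht]
    have he : z + t • (z - x) - x = (1 + t) • (z - x) := by module
    simp only [hGdef, he, norm_smul, Real.norm_eq_abs, abs_of_pos ht']
    rw [smul_smul]
    congr 1
    have hn : ‖z - x‖ ≠ 0 := norm_ne_zero_iff.2 hw
    field_simp
  rw [infLap_eq_of_gradient hG hGd.hasFDerivAt]
  have hpos : 0 < ‖z - x‖ := norm_pos_iff.2 hw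
  have hk : -(β / ‖z - x‖) + 2 * η < 0 := by
    have : 2 * η < β / ‖z - x‖ := by rw [lt_div_iff₀ hpos]; exact hne
    linarith
  have hval : G z = (-(β / ‖z - x‖) + 2 * η) • (z - x) := rfl
  rw [hval, map_smul, hrad]
  simp only [inner_smul_left, inner_smul_right, real_inner_self_eq_norm_sq, conj_trivial]
  have := mul_pos (mul_pos_of_neg_of_neg hk hk) (mul_pos hη (pow_pos hpos 2))
  linarith

/-- Comparison with cones from below. -/
theorem cone_below [FiniteDimensional ℝ E] {u : E → ℝ} {x : E} {r b : ℝ}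
    (hb : 0 ≤ b) (hcont : ContinuousOn u (closedBall x r)) (hsup : IsInfSuper u (ball x r))
    (hsph : ∀ y, ‖y - x‖ = r → u x - b * r ≤ u y) {y : E} (hy : y ∈ closedBall x r) :
    u x - b * ‖y - x‖ ≤ u y := by
  have hy' : ‖y - x‖ ≤ r := by simpa [dist_eq_norm] using hy
  rcases eq_or_ne y x with rfl | hyx
  · simp
  have hr : 0 < r := lt_of_lt_of_le (norm_pos_iff.2 (sub_ne_zero.2 hyx)) hy'
  refine le_of_forall_pos_le_add fun ε hε => ?_
  set δ : ℝ := ε / r with hδ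
  have hδpos : 0 < δ := div_pos hε hr
  set β : ℝ := b + δ with hβ
  set η : ℝ := δ / (3 * r) with hη
  have hηpos : 0 < η := by positivity
  have hηr : η * r = δ / 3 := by rw [hη]; field_simp
  set φ : E → ℝ := fun y => u x - β * ‖y - x‖ + η * ‖y - x‖ ^ 2 with hφ
  have hφc : Continuous φ := by simp only [hφ]; fun_prop
  obtain ⟨z, hz, hmin⟩ := (isCompact_closedBall x r).exists_isMinOn
    ⟨x, mem_closedBall_self hr.le⟩ (hcont.sub hφc.continuousOn)
  have hz' : ‖z - x‖ ≤ r := by simpa [dist_eq_norm] using hz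
  have hnonneg : 0 ≤ u z - φ z := by
    by_contra hneg
    push Not at hneg
    have hzx : z ≠ x := by
      rintro rfl
      simp [hφ] at hneg
    have hlt : ‖z - x‖ < r := by
      refine lt_of_le_of_ne hz' fun he => ?_
      have := hsph z he
      have h2 : η * r ^ 2 = δ / 3 * r := by rw [← hηr]; ring
      simp only [hφ, he, h2, hβ] at hneg
      nlinarith [mul_pos hδpos hr]
    have hball : z ∈ ball x r := by simpa [dist_eq_norm] using hlt
    have hloc : IsLocalMin (fun y => u y - φ y) z := by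
      filter_upwards [isOpen_ball.mem_nhds hball] with w hw
      exact hmin (ball_subset_closedBall hw)
    have hne : 2 * η * ‖z - x‖ < β := by
      have : η * ‖z - x‖ ≤ η * r := mul_le_mul_of_nonneg_left hz' hηpos.le
      rw [hηr] at this
      rw [hβ]
      nlinarith [this, hb, hδpos]
    obtain ⟨hc, hpos⟩ := cone_infLap_pos (a := u x) hzx hηpos hne
    exact (not_lt.2 (hsup z hball φ hc hloc)) hpos
  have h1 : u z - φ z ≤ u y - φ y := hmin hy
  have h2 : φ y ≤ u y := by linarith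
  have h3 : δ * ‖y - x‖ ≤ ε := by
    calc δ * ‖y - x‖ ≤ δ * r := mul_le_mul_of_nonneg_left hy' hδpos.le
      _ = ε := by rw [hδ]; field_simp
  have h4 : 0 ≤ η * ‖y - x‖ ^ 2 := by positivity
  simp only [hφ, hβ] at h2
  linarith

/-- At a point of differentiability the slope is at most the drop over any smaller ball. -/
theorem slope_le_drop [FiniteDimensional ℝ E] {u : E → ℝ} {x p : E} {r : ℝ} (hr : 0 < r)
    (hcont : ContinuousOn u (closedBall x r)) (hsup : IsInfSuper u (ball x r))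
    (hp : HasGradientAt u p x) :
    ∃ z ∈ closedBall x r, ‖p‖ * r ≤ u x - u z := by
  obtain ⟨z, hz, hmin⟩ := (isCompact_closedBall x r).exists_isMinOn
    ⟨x, mem_closedBall_self hr.le⟩ hcont
  refine ⟨z, hz, ?_⟩
  have hzx : u z ≤ u x := hmin (mem_closedBall_self hr.le)
  set b : ℝ := (u x - u z) / r with hb
  have hb0 : 0 ≤ b := div_nonneg (by linarith) hr.le
  have hbr : b * r = u x - u z := by rw [hb]; field_simp
  suffices h : ‖p‖ ≤ b by nlinarith
  have hsph : ∀ y, ‖y - x‖ = r → u x - b * r ≤ u y := by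
    intro y hy
    have h1 : u z ≤ u y :=
      hmin (show y ∈ closedBall x r by simpa [dist_eq_norm] using hy.le)
    linarith
  have hline : HasDerivAt (fun t : ℝ => u (x + t • (-p))) (⟪p, -p⟫_ℝ) 0 := by
    have h0 : HasDerivAt (fun t : ℝ => x + t • (-p)) (-p) 0 := by
      simpa using ((hasDerivAt_id (0 : ℝ)).smul_const (-p)).const_add x
    have h1 := HasFDerivAt.comp_hasDerivAt_of_eq 0 (hasGradientAt_iff_hasFDerivAt.1 hp) h0
      (by simp)
    rwa [InnerProductSpace.toDual_apply_apply] at h1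
  have hlim := hline.tendsto_slope_zero_right
  have hbound : ∀ᶠ t in 𝓝[>] (0 : ℝ),
      -(b * ‖p‖) ≤ t⁻¹ • (u (x + (0 + t) • (-p)) - u (x + (0 : ℝ) • (-p))) := by
    have hsmall : ∀ᶠ t in 𝓝 (0 : ℝ), x + t • (-p) ∈ closedBall x r := by
      apply (show Continuous fun t : ℝ => x + t • (-p) by fun_prop).continuousAt.preimage_mem_nhds
      simp [closedBall_mem_nhds x hr]
    filter_upwards [hsmall.filter_mono nhdsWithin_le_nhds, self_mem_nhdsWithin] with t ht (htpos : 0 < t)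
    have h1 := cone_below hb0 hcont hsup hsph ht
    have h2 : ‖x + t • (-p) - x‖ = t * ‖p‖ := by
      simp [norm_smul, abs_of_pos htpos]
    rw [h2] at h1
    simp only [zero_add, zero_smul, add_zero, smul_eq_mul]
    rw [inv_mul_eq_div, le_div_iff₀ htpos]
    linarith
  have := ge_of_tendsto hlim hbound
  rw [inner_neg_right, real_inner_self_eq_norm_sq] at this
  rcases eq_or_lt_of_le (norm_nonneg p) with h0 | h0
  · rw [← h0]; exact hb0
  · nlinarith

omit [CompleteSpace E] in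
/-- One side of the two-point inequality. -/
theorem one_side {u : E → ℝ} {x y z p q : E} {r L C : ℝ} (hr : 0 ≤ r) (hC : 0 ≤ C)
    (hL : ‖p‖ ≤ L) (hzr : ‖z - x‖ ≤ r) (hdrop : ‖p‖ * r ≤ u x - u z)
    (hxz : u x + ⟪p, z - x⟫_ℝ - C / 2 * ‖z - x‖ ^ 2 ≤ u z)
    (hxy : u x + ⟪p, y - x⟫_ℝ - C / 2 * ‖y - x‖ ^ 2 ≤ u y)
    (hyz : u y + ⟪q, z - y⟫_ℝ - C / 2 * ‖z - y‖ ^ 2 ≤ u z) :
    r * (‖p‖ ^ 2 - ⟪q, p⟫_ℝ) ≤
      ‖p - q‖ * (L * ‖y - x‖ + √(C * r ^ 3 * L)) + C * L * (r + ‖y - x‖) ^ 2 ∧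
    (C = 0 → r * (‖p‖ - ‖q‖) ≤ ‖p - q‖ * ‖y - x‖) := by
  set w : E := z - x with hw
  set k : E := y - x with hk
  have hzy : z - y = w - k := by rw [hw, hk]; abel
  rw [hzy] at hyz
  have hs := norm_nonneg p
  have hwk : ‖w - k‖ ≤ r + ‖k‖ := by linarith [norm_sub_le w k]
  have hq : ⟪q, w - k⟫_ℝ = ⟪q, w⟫_ℝ - ⟪q, k⟫_ℝ := inner_sub_right q w k
  have hD : ⟪p - q, k⟫_ℝ = ⟪p, k⟫_ℝ - ⟪q, k⟫_ℝ := inner_sub_left p q k
  have hDk := abs_le.1 (abs_real_inner_le_norm (p - q) k)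
  have hsq1 : ‖w - k‖ ^ 2 ≤ (r + ‖k‖) ^ 2 := pow_le_pow_left₀ (norm_nonneg _) hwk 2
  have hsq2 : ‖k‖ ^ 2 ≤ (r + ‖k‖) ^ 2 :=
    pow_le_pow_left₀ (norm_nonneg _) (le_add_of_nonneg_left hr) 2
  have hsq3 : ‖w‖ ^ 2 ≤ r ^ 2 := pow_le_pow_left₀ (norm_nonneg _) hzr 2
  have hmain : ⟪p - q, k⟫_ℝ + ⟪q, w⟫_ℝ - C * (r + ‖k‖) ^ 2 ≤ -(r * ‖p‖) := by
    have h1 := mul_le_mul_of_nonneg_left hsq1 hC
    have h2 := mul_le_mul_of_nonneg_left hsq2 hC
    linarith
  refine ⟨?_, ?_⟩
  · set e : E := ‖p‖ • w + r • p with he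
    have hpw : ⟪p, w⟫_ℝ ≤ -(r * ‖p‖) + C / 2 * r ^ 2 := by
      have h1 := mul_le_mul_of_nonneg_left hsq3 hC
      linarith
    have hpw' := (abs_le.1 (abs_real_inner_le_norm p w)).1
    have he2 : ‖e‖ ^ 2 ≤ C * r ^ 3 * L := by
      have h1 : ‖e‖ ^ 2 = ‖p‖ ^ 2 * ‖w‖ ^ 2 + 2 * (‖p‖ * r) * ⟪p, w⟫_ℝ + r ^ 2 * ‖p‖ ^ 2 := by
        rw [he, norm_add_sq_real, norm_smul, norm_smul, inner_smul_left, inner_smul_right,
          real_inner_comm]
        simp only [conj_trivial, mul_pow, Real.norm_eq_abs, sq_abs]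
        ring
      have h2 := mul_le_mul_of_nonneg_left hsq3 (sq_nonneg ‖p‖)
      have h3 := mul_le_mul_of_nonneg_left hpw (mul_nonneg hs hr)
      have h4 := mul_le_mul_of_nonneg_left hL (show 0 ≤ C * r ^ 3 by positivity)
      linarith
    have he1 : ‖e‖ ≤ √(C * r ^ 3 * L) := Real.le_sqrt_of_sq_le he2
    have hpe : 0 ≤ ⟪p, e⟫_ℝ := by
      rw [he, inner_add_right, inner_smul_right, inner_smul_right, real_inner_self_eq_norm_sq]
      have h := mul_le_mul_of_nonneg_left hzr hs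
      have h2 : -(‖p‖ * r) ≤ ⟪p, w⟫_ℝ := by linarith
      have h3 := mul_le_mul_of_nonneg_left h2 hs
      linarith
    have hqe : ⟪q, e⟫_ℝ = ⟪p, e⟫_ℝ - ⟪p - q, e⟫_ℝ := by rw [inner_sub_left]; ring
    have hqe' : ⟪q, e⟫_ℝ = ‖p‖ * ⟪q, w⟫_ℝ + r * ⟪q, p⟫_ℝ := by
      rw [he, inner_add_right, inner_smul_right, inner_smul_right]
    have hDe := (abs_le.1 (abs_real_inner_le_norm (p - q) e)).2
    have t0 := mul_le_mul_of_nonneg_left hmain hs
    have t1 := mul_le_mul_of_nonneg_left hDk.1 hs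
    have t2 := mul_le_mul_of_nonneg_left hL
      (mul_nonneg (norm_nonneg (p - q)) (norm_nonneg k))
    have t3 := mul_le_mul_of_nonneg_left he1 (norm_nonneg (p - q))
    have t4 := mul_le_mul_of_nonneg_left hL (show 0 ≤ C * (r + ‖k‖) ^ 2 by positivity)
    linarith
  · rintro rfl
    have hqw := (abs_le.1 (abs_real_inner_le_norm q w)).1
    have h1 := mul_le_mul_of_nonneg_left hzr (norm_nonneg q)
    linarith [hDk.1]

/-- The two-point inequality at differentiability points with lower supporting paraboloids. -/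
theorem two_point [FiniteDimensional ℝ E] {u : E → ℝ} {Ω U : Set E} {x y p q : E} {r L C : ℝ}
    (hr : 0 < r) (hC : 0 ≤ C) (hsup : IsInfSuper u Ω) (hcont : ContinuousOn u U)
    (hUΩ : U ⊆ Ω) (hx : closedBall x r ⊆ U) (hy : closedBall y r ⊆ U)
    (hp : HasGradientAt u p x) (hq : HasGradientAt u q y)
    (hsx : ∀ v ∈ U, u x + ⟪p, v - x⟫_ℝ - C / 2 * ‖v - x‖ ^ 2 ≤ u v)
    (hsy : ∀ v ∈ U, u y + ⟪q, v - y⟫_ℝ - C / 2 * ‖v - y‖ ^ 2 ≤ u v)
    (hpL : ‖p‖ ≤ L) (hqL : ‖q‖ ≤ L) :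
    r * ‖p - q‖ ^ 2 ≤ 2 * (‖p - q‖ * (L * ‖y - x‖ + √(C * r ^ 3 * L))
      + C * L * (r + ‖y - x‖) ^ 2) ∧
    (C = 0 → r * |‖p‖ - ‖q‖| ≤ ‖p - q‖ * ‖y - x‖) := by
  obtain ⟨z, hz, hzd⟩ := slope_le_drop hr (hcont.mono hx)
    (hsup.mono (ball_subset_closedBall.trans (hx.trans hUΩ))) hp
  obtain ⟨z', hz', hzd'⟩ := slope_le_drop hr (hcont.mono hy)
    (hsup.mono (ball_subset_closedBall.trans (hy.trans hUΩ))) hq
  have hxU : x ∈ U := hx (mem_closedBall_self hr.le)
  have hyU : y ∈ U := hy (mem_closedBall_self hr.le)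
  have A := one_side (u := u) (x := x) (y := y) (z := z) hr.le hC hpL
    (by simpa [dist_eq_norm] using hz) hzd (hsx z (hx hz)) (hsx y hyU) (hsy z (hx hz))
  have B := one_side (u := u) (x := y) (y := x) (z := z') hr.le hC hqL
    (by simpa [dist_eq_norm] using hz') hzd' (hsy z' (hy hz')) (hsy x hxU) (hsx z' (hy hz'))
  rw [norm_sub_rev q p, norm_sub_rev x y, real_inner_comm q p] at B
  refine ⟨?_, fun h0 => ?_⟩
  · rw [norm_sub_sq_real p q, real_inner_comm q p]
    linarith [A.1, B.1]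
  · rcases abs_cases (‖p‖ - ‖q‖) with ⟨he, _⟩ | ⟨he, _⟩ <;> rw [he] <;>
      linarith [A.2 h0, B.2 h0]

end Vale.Agent.P080
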