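import Vale.Agent.P080.Semiconvex

/-!
Interior estimates, eikonal rigidity and Liouville theorem.
-/

open Set Filter Topology Metric
open scoped InnerProductSpace Gradient ContDiff

namespace Vale.Agent.P080

variable {E : Type} [NormedAddCommGroup E] [InnerProductSpace ℝ E] [FiniteDimensional ℝ E]
  [CompleteSpace E]

theorem quadratic_scalar {D c L a : ℝ} (hD : 0 ≤ D) (hc : 0 ≤ c) (hL : 0 ≤ L) (ha : 0 ≤ a)
    (h : D ^ 2 ≤ 2 * D * c * (L + a) + 8 * c ^ 2 * a ^ 2) : D ≤ c * (2 * L + 5 * a) := by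
  by_contra hlt
  push Not at hlt
  have hDp : 0 < D := lt_of_le_of_lt (by positivity) hlt
  have h1 := mul_lt_mul_of_pos_left hlt hDp
  have h2 := mul_le_mul_of_nonneg_left hlt.le (mul_nonneg hc ha)
  have h3 := mul_nonneg (mul_nonneg hc ha) (mul_nonneg hc hL)
  have h4 := sq_nonneg (c * a)
  linarith

theorem lipschitz_scalar {D L R h : ℝ} (hL : 0 ≤ L) (hR : 0 < R) (hh : 0 ≤ h) (hD : 0 ≤ D)
    (hcore : R / 2 * D ^ 2 ≤ 2 * (D * (L * h))) : D ≤ 4 * L * h / R := by
  rw [le_div_iff₀ hR]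
  rcases eq_or_lt_of_le hD with rfl | hDp
  · rw [zero_mul]; positivity
  · refine le_of_mul_le_mul_left ?_ hDp
    linarith

theorem holder_scalar {C L R h D : ℝ} (hC : 0 ≤ C) (hL : 0 ≤ L) (hR : 0 < R) (hpos : 0 < h)
    (hhR : h < R / 2) (hD : 0 ≤ D)
    (core : ∀ r, 0 < r → r ≤ R / 2 →
      r * D ^ 2 ≤ 2 * (D * (L * h + √(C * r ^ 3 * L)) + C * L * (r + h) ^ 2)) :
    D ≤ (6 * L + 2 * C * R) * (h / R) ^ (1 / 3 : ℝ) := by
  set c : ℝ := (2 * h / R) ^ (1 / 3 : ℝ) with hc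
  have hcpos : 0 < c := Real.rpow_pos_of_pos (by positivity) _
  have hc3 : c ^ 3 = 2 * h / R := by
    rw [hc, ← Real.rpow_natCast, ← Real.rpow_mul (by positivity)]
    norm_num
  have hc1 : c ≤ 1 := Real.rpow_le_one (by positivity) ((div_le_one hR).2 (by linarith))
    (by norm_num)
  set r : ℝ := R / 2 * c ^ 2 with hr
  have hrpos : 0 < r := by positivity
  have hh' : h = R / 2 * c ^ 3 := by rw [hc3]; field_simp
  have hhr : h ≤ r := by
    rw [hh', hr]
    exact mul_le_mul_of_nonneg_left (pow_le_pow_of_le_one hcpos.le hc1 (by norm_num))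
      (by linarith)
  have hrR : r ≤ R / 2 := mul_le_of_le_one_right (by linarith) (pow_le_one₀ hcpos.le hc1)
  have hcore := core r hrpos hrR
  set a : ℝ := (C * R / 2 + L) / 2 with ha
  have ha0 : 0 ≤ a := by positivity
  have hCLR : C * L * (R / 2) ≤ a ^ 2 := by
    have := sq_nonneg (C * R / 2 - L)
    rw [ha]
    linarith
  have hsq : √(C * r ^ 3 * L) ≤ r * c * a := by
    refine Real.sqrt_le_iff.2 ⟨by positivity, ?_⟩
    calc C * r ^ 3 * L = r ^ 2 * c ^ 2 * (C * L * (R / 2)) := by rw [hr]; ring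
      _ ≤ r ^ 2 * c ^ 2 * a ^ 2 := mul_le_mul_of_nonneg_left hCLR (by positivity)
      _ = (r * c * a) ^ 2 := by ring
  have hlast : C * L * (r + h) ^ 2 ≤ 4 * r * c ^ 2 * a ^ 2 := by
    calc C * L * (r + h) ^ 2 ≤ C * L * (2 * r) ^ 2 := by
          apply mul_le_mul_of_nonneg_left (pow_le_pow_left₀ (by positivity) (by linarith) 2)
          positivity
      _ = 4 * r * c ^ 2 * (C * L * (R / 2)) := by rw [hr]; ring
      _ ≤ 4 * r * c ^ 2 * a ^ 2 := mul_le_mul_of_nonneg_left hCLR (by positivity)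
  have hLh : L * h = r * c * L := by rw [hh', hr]; ring
  have hbound : r * D ^ 2 ≤ r * (2 * D * c * (L + a) + 8 * c ^ 2 * a ^ 2) := by
    have := mul_le_mul_of_nonneg_left hsq hD
    rw [hLh] at hcore
    linarith
  have hDle : D ≤ c * (2 * L + 5 * a) :=
    quadratic_scalar hD hcpos.le hL ha0 (le_of_mul_le_mul_left hbound hrpos)
  have hcle : c ≤ (4 / 3) * (h / R) ^ (1 / 3 : ℝ) := by
    rw [hc, show 2 * h / R = 2 * (h / R) by ring, Real.mul_rpow (by norm_num) (by positivity)]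
    refine mul_le_mul_of_nonneg_right ?_ (by positivity)
    have h2 : ((2 : ℝ) ^ (1 / 3 : ℝ)) ^ 3 = 2 := by
      rw [← Real.rpow_natCast, ← Real.rpow_mul (by norm_num)]
      norm_num
    by_contra hlt
    push Not at hlt
    have := pow_lt_pow_left₀ hlt (by norm_num) (three_ne_zero)
    rw [h2] at this
    norm_num at this
  refine hDle.trans ((mul_le_mul_of_nonneg_right hcle (by positivity)).trans ?_)
  have hcoef : (4 / 3) * (2 * L + 5 * a) ≤ 6 * L + 2 * C * R := by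
    have := mul_nonneg hC hR.le
    rw [ha]
    linarith
  rw [show (4 / 3) * (h / R) ^ (1 / 3 : ℝ) * (2 * L + 5 * a)
    = (4 / 3) * (2 * L + 5 * a) * (h / R) ^ (1 / 3 : ℝ) by ring]
  exact mul_le_mul_of_nonneg_right hcoef (by positivity)

/-- Pointwise estimate: only differentiability and lower paraboloids at the two points. -/
theorem two_point_estimate {C : ℝ} (hC : 0 ≤ C) {u : E → ℝ} {x₀ x y p q : E} {R m M : ℝ}
    (hR : 0 < R) (hcont : ContinuousOn u (closedBall x₀ R)) (hsup : IsInfSuper u (ball x₀ R))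
    (hbd : ∀ v ∈ ball x₀ R, u v ∈ Icc m M)
    (hx : x ∈ ball x₀ (R / 4)) (hy : y ∈ ball x₀ (R / 4))
    (hp : HasGradientAt u p x) (hq : HasGradientAt u q y)
    (hsx : IsLowerSlope C u (ball x₀ R) x p) (hsy : IsLowerSlope C u (ball x₀ R) y q) :
    ‖p‖ ≤ 2 * (M - m) / R ∧
    ‖p - q‖ ≤ (12 * (M - m) / R + 2 * C * R) * (‖x - y‖ / R) ^ (1 / 3 : ℝ) ∧
    (C = 0 → ‖p - q‖ ≤ 8 * (M - m) / R ^ 2 * ‖x - y‖ ∧
      |‖p‖ - ‖q‖| ≤ 16 * (M - m) / R ^ 3 * ‖x - y‖ ^ 2) := by
  rw [mem_ball] at hx hy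
  have hcl : ∀ a : E, dist a x₀ < R / 4 → ∀ r ≤ R / 2, closedBall a r ⊆ ball x₀ R :=
    fun a ha r hr => closedBall_subset_ball' (by linarith)
  have hc' : ContinuousOn u (ball x₀ R) := hcont.mono ball_subset_closedBall
  have hslope : ∀ a g : E, dist a x₀ < R / 4 → HasGradientAt u g a → ‖g‖ ≤ 2 * (M - m) / R := by
    intro a g ha hg
    have hsub := hcl a ha (R / 2) le_rfl
    obtain ⟨z, hz, hzd⟩ := slope_le_drop (half_pos hR) (hc'.mono hsub)
      (hsup.mono (ball_subset_closedBall.trans hsub)) hg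
    have h1 := hbd z (hsub hz)
    have h2 := hbd a (hsub (mem_closedBall_self (half_pos hR).le))
    rw [le_div_iff₀ hR]
    linarith [h1.1, h2.2]
  set L : ℝ := 2 * (M - m) / R with hLdef
  have hpL := hslope x p hx hp
  have hqL := hslope y q hy hq
  refine ⟨hpL, ?_⟩
  have hL0 : 0 ≤ L := le_trans (norm_nonneg p) hpL
  have hLR : L * R = 2 * (M - m) := by rw [hLdef]; field_simp
  set h : ℝ := ‖x - y‖ with hh
  have hh0 : 0 ≤ h := norm_nonneg _
  have hhR : h < R / 2 := by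
    rw [hh, ← dist_eq_norm]
    linarith [dist_triangle_right x y x₀]
  have core : ∀ r, 0 < r → r ≤ R / 2 →
      r * ‖p - q‖ ^ 2 ≤ 2 * (‖p - q‖ * (L * h + √(C * r ^ 3 * L)) + C * L * (r + h) ^ 2) ∧
      (C = 0 → r * |‖p‖ - ‖q‖| ≤ ‖p - q‖ * h) := by
    intro r hr hr'
    have := two_point hr hC hsup hc' subset_rfl (hcl x hx r hr') (hcl y hy r hr')
      hp hq hsx hsy hpL hqL
    rwa [norm_sub_rev y x] at this
  set D : ℝ := ‖p - q‖ with hD
  have hD0 : 0 ≤ D := norm_nonneg _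
  refine ⟨?_, ?_⟩
  · have h12 : 12 * (M - m) / R = 6 * L := by rw [hLdef]; ring
    rcases eq_or_lt_of_le hh0 with h0 | hpos
    · have hxy : x = y := sub_eq_zero.1 (norm_eq_zero.1 (hh.symm.trans h0.symm))
      subst hxy
      have hpq : p = q := hp.unique hq
      simp [hD, hpq, ← h0]
    rw [h12]
    exact holder_scalar hC hL0 hR hpos hhR hD0 (fun r hr hr' => (core r hr hr').1)
  · rintro rfl
    obtain ⟨hcore, hslopes⟩ := core (R / 2) (half_pos hR) le_rfl
    simp only [zero_mul, Real.sqrt_zero, add_zero] at hcore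
    have hDle : D ≤ 4 * L * h / R := lipschitz_scalar hL0 hR hh0 hD0 hcore
    have h8 : 8 * (M - m) / R ^ 2 * h = 4 * L * h / R := by rw [hLdef]; ring
    refine ⟨h8 ▸ hDle, ?_⟩
    have h1 := hslopes rfl
    have h2 := mul_le_mul_of_nonneg_right hDle hh0
    have h16 : 16 * (M - m) / R ^ 3 * h ^ 2 = (4 * L * h / R * h) / (R / 2) := by
      rw [hLdef]; ring
    rw [h16, le_div_iff₀ (half_pos hR)]
    linarith

/-- Semiconvexity on the balls contained in an open set, i.e. `D²u ≥ -C` in the weak sense. -/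
def SemiconvexOnBalls (C : ℝ) (u : E → ℝ) (Ω : Set E) : Prop :=
  ∀ x r, ball x r ⊆ Ω → ConvexOn ℝ (ball x r) (fun y => u y + C / 2 * ‖y‖ ^ 2)

theorem hasGradientAt_of_semiconvexOnBalls {C : ℝ} {u : E → ℝ} {Ω : Set E} (hΩ : IsOpen Ω)
    (hsup : IsInfSuper u Ω) (hv : SemiconvexOnBalls C u Ω) {x : E} (hx : x ∈ Ω) :
    HasGradientAt u (gradient u x) x ∧ ContinuousAt (gradient u) x := by
  obtain ⟨r, hr, hball⟩ := Metric.isOpen_iff.1 hΩ x hx
  obtain ⟨h1, -, h3⟩ := hasGradientAt_of_semiconvex isOpen_ball (hsup.mono hball) (hv x r hball)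
    (mem_ball_self hr)
  exact ⟨h1, h3⟩

theorem contDiffOn_of_semiconvexOnBalls {C : ℝ} {u : E → ℝ} {Ω : Set E} (hΩ : IsOpen Ω)
    (hsup : IsInfSuper u Ω) (hv : SemiconvexOnBalls C u Ω) : ContDiffOn ℝ 1 u Ω := by
  rw [show (1 : ℕ∞ω) = 0 + 1 by norm_num, contDiffOn_succ_iff_fderiv_of_isOpen hΩ]
  refine ⟨fun x hx => ?_, by simp, contDiffOn_zero.2 ?_⟩
  · exact (hasGradientAt_of_semiconvexOnBalls hΩ hsup hv hx).1.differentiableAt.differentiableWithinAt
  · have h : ContinuousOn (gradient u) Ω := fun x hx =>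
      (hasGradientAt_of_semiconvexOnBalls hΩ hsup hv hx).2.continuousWithinAt
    have h2 := (InnerProductSpace.toDual ℝ E).continuous.comp_continuousOn h
    refine h2.congr fun x _ => ?_
    simp [toDual_gradient]

theorem gradient_estimate {C : ℝ} (hC : 0 ≤ C) {u : E → ℝ} {Ω : Set E} (hΩ : IsOpen Ω)
    (hsup : IsInfSuper u Ω) (hv : SemiconvexOnBalls C u Ω) {x₀ : E} {R m M : ℝ} (hR : 0 < R)
    (hball : closedBall x₀ R ⊆ Ω) (hbd : ∀ v ∈ ball x₀ R, u v ∈ Icc m M)
    {x y : E} (hx : x ∈ ball x₀ (R / 4)) (hy : y ∈ ball x₀ (R / 4)) :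
    ‖gradient u x - gradient u y‖ ≤
        (12 * (M - m) / R + 2 * C * R) * (‖x - y‖ / R) ^ (1 / 3 : ℝ) ∧
    (C = 0 → ‖gradient u x - gradient u y‖ ≤ 8 * (M - m) / R ^ 2 * ‖x - y‖ ∧
      |‖gradient u x‖ - ‖gradient u y‖| ≤ 16 * (M - m) / R ^ 3 * ‖x - y‖ ^ 2) := by
  have hb : ball x₀ R ⊆ Ω := ball_subset_closedBall.trans hball
  have hbig : ball x₀ (R / 4) ⊆ ball x₀ R := ball_subset_ball (by linarith)
  have hgx := hasGradientAt_of_semiconvex isOpen_ball (hsup.mono hb) (hv x₀ R hb) (hbig hx)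
  have hgy := hasGradientAt_of_semiconvex isOpen_ball (hsup.mono hb) (hv x₀ R hb) (hbig hy)
  have hc : ContinuousOn u (closedBall x₀ R) := fun a ha =>
    (hasGradientAt_of_semiconvexOnBalls hΩ hsup hv (hball ha)).1.continuousAt.continuousWithinAt
  exact (two_point_estimate hC hR hc (hsup.mono hb) hbd hx hy hgx.1 hgy.1 hgx.2.1 hgy.2.1).2

/-- A convex infinity-supersolution solves an eikonal equation on each connected open set. -/
theorem norm_gradient_const {u : E → ℝ} {Ω : Set E} (hΩ : IsOpen Ω) (hconn : IsPreconnected Ω)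
    (hsup : IsInfSuper u Ω) (hv : SemiconvexOnBalls 0 u Ω) {x y : E} (hx : x ∈ Ω) (hy : y ∈ Ω) :
    ‖gradient u x‖ = ‖gradient u y‖ := by
  have hd : ∀ a ∈ Ω, HasFDerivAt (fun b => ‖gradient u b‖) (0 : E →L[ℝ] ℝ) a := by
    intro a ha
    obtain ⟨R, hR, hball⟩ := nhds_basis_closedBall.mem_iff.1 (hΩ.mem_nhds ha)
    have hc : ContinuousOn u (closedBall a R) := fun b hb =>
      (hasGradientAt_of_semiconvexOnBalls hΩ hsup hv (hball hb)).1.continuousAt.continuousWithinAt
    obtain ⟨A, hA⟩ := (isCompact_closedBall a R).exists_bound_of_continuousOn hc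
    have hbd : ∀ v ∈ ball a R, u v ∈ Icc (-A) A :=
      fun v hv' => abs_le.1 (hA v (ball_subset_closedBall hv'))
    have hO : (fun b => ‖gradient u b‖ - ‖gradient u a‖) =O[𝓝 a] fun b => ‖b - a‖ ^ 2 := by
      refine Asymptotics.IsBigO.of_bound (16 * (A - -A) / R ^ 3) ?_
      filter_upwards [ball_mem_nhds a (show 0 < R / 4 by linarith)] with b hb
      have h := ((gradient_estimate le_rfl hΩ hsup hv hR hball hbd
        (mem_ball_self (by linarith)) hb).2 rfl).2
      rw [abs_sub_comm, norm_sub_rev] at h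
      simpa [abs_of_nonneg (sq_nonneg ‖b - a‖)] using h
    have := (Asymptotics.IsBigO.hasFDerivAt (𝕜 := ℝ) hO one_lt_two).add_const ‖gradient u a‖
    simpa using this
  exact hΩ.is_const_of_fderiv_eq_zero hconn
    (fun a ha => (hd a ha).differentiableAt.differentiableWithinAt)
    (fun a ha => (hd a ha).fderiv) hx hy

/-- Liouville: an entire convex infinity-supersolution is affine. -/
theorem affine_of_entire {u : E → ℝ} (hsup : IsInfSuper u univ)
    (hv : SemiconvexOnBalls 0 u univ) : ∃ p : E, ∀ x, u x = u 0 + ⟪p, x⟫_ℝ := by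
  set g : E → E := gradient u with hg
  set s : ℝ := ‖g 0‖ with hs
  have hnorm : ∀ a, ‖g a‖ = s := fun a =>
    norm_gradient_const isOpen_univ isPreconnected_univ hsup hv (mem_univ a) (mem_univ 0)
  have hlow : ∀ a b, u a + ⟪g a, b - a⟫_ℝ ≤ u b := by
    intro a b
    have h := (hasGradientAt_of_semiconvex isOpen_ball (hsup.mono (subset_univ _))
      (hv a (‖b - a‖ + 1) (subset_univ _)) (mem_ball_self (by positivity))).2.1 b
      (by rw [mem_ball, dist_eq_norm]; linarith)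
    simpa only [hg, zero_div, zero_mul, sub_zero] using h
  have hconst : ∀ a, g a = g 0 := by
    intro a
    by_contra hne
    have hD : 0 < ‖g a - g 0‖ := norm_pos_iff.2 (sub_ne_zero.2 hne)
    set R : ℝ := 4 * ‖a‖ + 16 * s * ‖a‖ / ‖g a - g 0‖ + 1 with hR
    have hRpos : 0 < R := by positivity
    have hR4 : 4 * ‖a‖ < R := by
      have : 0 ≤ 16 * s * ‖a‖ / ‖g a - g 0‖ := by positivity
      linarith
    have hbd : ∀ v ∈ ball (0 : E) R, u v ∈ Icc (u 0 - s * R) (u 0 + s * R) := by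
      intro v hv'
      rw [mem_ball, dist_zero_right] at hv'
      have h1 := hlow 0 v
      have h2 := hlow v 0
      have e1 := abs_le.1 (abs_real_inner_le_norm (g 0) (v - 0))
      have e2 := abs_le.1 (abs_real_inner_le_norm (g v) (0 - v))
      simp only [hnorm, sub_zero, zero_sub, norm_neg] at e1 e2 h1 h2
      have := mul_le_mul_of_nonneg_left hv'.le (show 0 ≤ s from norm_nonneg _)
      constructor <;> linarith
    have h := ((gradient_estimate le_rfl isOpen_univ hsup hv hRpos (subset_univ _) hbd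
      (x := a) (y := 0) (by rw [mem_ball, dist_zero_right]; linarith)
      (mem_ball_self (by linarith))).2 rfl).1
    rw [sub_zero] at h
    have heq : 8 * (u 0 + s * R - (u 0 - s * R)) / R ^ 2 * ‖a‖ = 16 * s * ‖a‖ / R := by
      field_simp; ring
    rw [heq, le_div_iff₀ hRpos] at h
    have : ‖g a - g 0‖ * R = ‖g a - g 0‖ * (4 * ‖a‖ + 1) + 16 * s * ‖a‖ := by
      rw [hR]; field_simp; ring
    nlinarith [mul_pos hD (show (0 : ℝ) < 4 * ‖a‖ + 1 by positivity)]
  refine ⟨g 0, fun x => le_antisymm ?_ ?_⟩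
  · have h := hlow x 0
    rw [hconst, zero_sub, inner_neg_right] at h
    linarith
  · have h := hlow 0 x
    rw [sub_zero] at h
    linarith

end Vale.Agent.P080
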