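import Vale.Agent.P080.Basic

/-!
Semiconvex infinity-supersolutions are C^{1,1/3}; convex ones are eikonal and C^{1,1}.
-/

open Set Filter Topology Metric
open scoped InnerProductSpace Gradient

namespace Vale.Agent.P080

variable {E : Type} [NormedAddCommGroup E] [InnerProductSpace ℝ E] [FiniteDimensional ℝ E]
  [CompleteSpace E]

/-- `p` is the slope of a lower paraboloid of opening `C` at `x`, valid on `U`. -/
def IsLowerSlope (C : ℝ) (u : E → ℝ) (U : Set E) (x p : E) : Prop :=
  ∀ v ∈ U, u x + ⟪p, v - x⟫_ℝ - C / 2 * ‖v - x‖ ^ 2 ≤ u v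

omit [CompleteSpace E] in
theorem continuousOn_of_semiconvex {C : ℝ} {u : E → ℝ} {U : Set E} (hU : IsOpen U)
    (hv : ConvexOn ℝ U (fun y => u y + C / 2 * ‖y‖ ^ 2)) : ContinuousOn u U := by
  have h := (hv.continuousOn hU).sub
    (show Continuous fun y : E => C / 2 * ‖y‖ ^ 2 by fun_prop).continuousOn
  refine h.congr fun y _ => ?_
  simp

theorem exists_lowerSlope {C : ℝ} {u : E → ℝ} {U : Set E} (hU : IsOpen U)
    (hv : ConvexOn ℝ U (fun y => u y + C / 2 * ‖y‖ ^ 2)) {x : E} (hx : x ∈ U) :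
    ∃ p, IsLowerSlope C u U x p := by
  set v : E → ℝ := fun y => u y + C / 2 * ‖y‖ ^ 2 with hvdef
  set S : Set (E × ℝ) := {a | a.1 ∈ U ∧ v a.1 < a.2} with hS
  have hSo : IsOpen S := by
    have h1 : ContinuousOn (fun a : E × ℝ => a.2 - v a.1) (U ×ˢ univ) :=
      continuous_snd.continuousOn.sub
        ((hv.continuousOn hU).comp continuous_fst.continuousOn fun a ha => ha.1)
    have h2 := h1.isOpen_inter_preimage (hU.prod isOpen_univ) isOpen_Ioi (t := Ioi (0 : ℝ))
    convert h2 using 1
    ext a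
    simp [hS]
  have hSc : Convex ℝ S := hv.convex_strict_epigraph
  obtain ⟨f, hf⟩ := geometric_hahn_banach_open_point (x := (x, v x)) hSc hSo
    (fun h => lt_irrefl (v x) h.2)
  set g : StrongDual ℝ E := f.comp (ContinuousLinearMap.inl ℝ E ℝ) with hg
  have hfdec : ∀ (y : E) (t : ℝ), f (y, t) = g y + t * f (0, 1) := by
    intro y t
    have : ((y, t) : E × ℝ) = (y, 0) + t • (0, 1) := by simp
    conv_lhs => rw [this, map_add, map_smul]
    simp [hg]
  have hc : f (0, 1) < 0 := by
    have h := hf (x, v x + 1) ⟨hx, lt_add_one _⟩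
    rw [hfdec x (v x + 1), hfdec x (v x)] at h
    linarith
  set p' : E := (InnerProductSpace.toDual ℝ E).symm ((-(f (0, 1)))⁻¹ • g) with hp'
  refine ⟨p' - C • x, fun y hy => ?_⟩
  have hle : g y + v y * f (0, 1) ≤ g x + v x * f (0, 1) := by
    refine le_of_forall_pos_le_add fun ε hε => ?_
    have hd : 0 < ε / (-f (0, 1)) := div_pos hε (by linarith)
    have h := hf (y, v y + ε / (-f (0, 1))) ⟨hy, lt_add_of_pos_right _ hd⟩
    rw [hfdec y (v y + ε / (-f (0, 1))), hfdec x (v x)] at h
    have : ε / (-f (0, 1)) * f (0, 1) = -ε := by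
      rw [div_neg, neg_mul, div_mul_cancel₀ _ hc.ne]
    linarith
  have hin : ⟪p', y - x⟫_ℝ * (-f (0, 1)) = g y - g x := by
    rw [hp', InnerProductSpace.toDual_symm_apply]
    simp only [smul_apply, smul_eq_mul, map_sub]
    rw [← mul_sub, mul_comm, ← mul_assoc, mul_inv_cancel₀ (neg_ne_zero.2 hc.ne), one_mul]
  have hsub : v x + ⟪p', y - x⟫_ℝ ≤ v y := by
    by_contra hlt
    push Not at hlt
    nlinarith [mul_lt_mul_of_pos_right hlt (show 0 < -f (0, 1) by linarith)]
  simp only [hvdef] at hsub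
  have hex : ‖y‖ ^ 2 = ‖x‖ ^ 2 + 2 * ⟪x, y - x⟫_ℝ + ‖y - x‖ ^ 2 := by
    rw [← norm_add_sq_real, add_sub_cancel]
  rw [inner_sub_left, inner_smul_left, conj_trivial]
  rw [hex] at hsub
  linarith

/-- Kink test: a supersolution has at most one lower slope at each point. -/
theorem lowerSlope_unique {C : ℝ} {u : E → ℝ} {U : Set E} (hU : IsOpen U)
    (hsup : IsInfSuper u U) {x p q : E} (hx : x ∈ U)
    (hp : IsLowerSlope C u U x p) (hq : IsLowerSlope C u U x q) : p = q := by
  set e : E := p - q with he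
  have key : ∀ θ : ℝ, 0 < θ → θ < 1 → ⟪e, q + θ • e⟫_ℝ = 0 := by
    intro θ h0 h1
    set a : E := q + θ • e with ha
    have main : ∀ M : ℝ, 0 < M → 2 * M * ⟪e, a⟫_ℝ ^ 2 - C * ‖a‖ ^ 2 ≤ 0 := by
      intro M hM
      set φ : E → ℝ := fun y =>
        u x + ⟪a, y - x⟫_ℝ + M * ⟪e, y - x⟫_ℝ ^ 2 - C / 2 * ‖y - x‖ ^ 2 with hφ
      have hsm : ∀ᶠ y in 𝓝 x, |⟪e, y - x⟫_ℝ| * M < min θ (1 - θ) := by
        refine (show Continuous fun y : E => |⟪e, y - x⟫_ℝ| * M by fun_prop).continuousAt
          |>.eventually_lt continuousAt_const ?_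
        simp [h0, h1]
      have hloc : IsLocalMin (fun y => u y - φ y) x := by
        filter_upwards [hsm, hU.mem_nhds hx] with y hy hyU
        have hb := hp y hyU
        have hc := hq y hyU
        have hy1 : |⟪e, y - x⟫_ℝ| * M < θ := hy.trans_le (min_le_left _ _)
        have hy2 : |⟪e, y - x⟫_ℝ| * M < 1 - θ := hy.trans_le (min_le_right _ _)
        have hpd : ⟪p, y - x⟫_ℝ = ⟪q, y - x⟫_ℝ + ⟪e, y - x⟫_ℝ := by
          rw [he, inner_sub_left]; ring
        have had : ⟪a, y - x⟫_ℝ = ⟪q, y - x⟫_ℝ + θ * ⟪e, y - x⟫_ℝ := by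
          rw [ha, inner_add_left, inner_smul_left, conj_trivial]
        simp only [hφ, had, sub_self, inner_zero_right, norm_zero]
        rcases le_or_gt 0 ⟪e, y - x⟫_ℝ with ht | ht
        · rw [abs_of_nonneg ht] at hy2
          have h3 := mul_le_mul_of_nonneg_left hy2.le ht
          linarith
        · rw [abs_of_neg ht] at hy1
          have h3 := mul_le_mul_of_nonpos_left hy1.le ht.le
          linarith
      have hcd : ContDiffAt ℝ 2 φ x := by
        have hs : ContDiffAt ℝ 2 (fun y : E => y - x) x := contDiffAt_id.sub contDiffAt_const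
        exact ((contDiffAt_const.add (contDiffAt_const.inner ℝ hs)).add
          (contDiffAt_const.mul ((contDiffAt_const.inner ℝ hs).pow 2))).sub
          (contDiffAt_const.mul (hs.norm_sq ℝ))
      set G : E → E := fun y => a + (2 * M * ⟪e, y - x⟫_ℝ) • e - C • (y - x) with hG
      have hgr : ∀ᶠ y in 𝓝 x, HasGradientAt φ (G y) y := Eventually.of_forall fun y => by
        have hid : HasFDerivAt (fun y : E => y - x) (ContinuousLinearMap.id ℝ E) y :=
          (hasFDerivAt_id y).sub_const x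
        have h1 := ((hasFDerivAt_const a y).inner ℝ hid).const_add (u x)
        have h2 := (((hasFDerivAt_const e y).inner ℝ hid).pow 2).const_mul M
        have h3 := hid.norm_sq.const_mul (C / 2)
        rw [hasGradientAt_iff_hasFDerivAt]
        refine ((h1.add h2).sub h3).congr_fderiv ?_
        ext w
        simp [hG, fderivInnerCLM_apply, inner_sub_left]
        ring
      set T : E →L[ℝ] E :=
        ((2 * M) • innerSL ℝ e).smulRight e - C • ContinuousLinearMap.id ℝ E with hT
      have hGd : HasFDerivAt G T x := by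
        have hlin : G = fun y => a + T (y - x) := by
          funext y
          simp [hG, hT]
          module
        rw [hlin]
        simpa using (T.hasFDerivAt.comp x ((hasFDerivAt_id x).sub_const x)).const_add a
      have h := hsup x hx φ hcd hloc
      rw [infLap_eq_of_gradient hgr hGd] at h
      have hGx : G x = a := by simp [hG]
      rw [hGx, hT] at h
      simp [inner_sub_left, inner_smul_left, real_inner_self_eq_norm_sq] at h
      linarith
    by_contra hne
    have hpos : 0 < ⟪e, a⟫_ℝ ^ 2 := lt_of_le_of_ne (sq_nonneg _) (Ne.symm (pow_ne_zero 2 hne))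
    set M₀ : ℝ := (|C| * ‖a‖ ^ 2 + 1) / ⟪e, a⟫_ℝ ^ 2 with hM
    have h := main M₀ (by positivity)
    have hM' : M₀ * ⟪e, a⟫_ℝ ^ 2 = |C| * ‖a‖ ^ 2 + 1 := by rw [hM]; field_simp
    nlinarith [le_abs_self C, sq_nonneg ‖a‖,
      mul_le_mul_of_nonneg_right (le_abs_self C) (sq_nonneg ‖a‖),
      mul_nonneg (abs_nonneg C) (sq_nonneg ‖a‖)]
  have h1 := key (1 / 3) (by norm_num) (by norm_num)
  have h2 := key (2 / 3) (by norm_num) (by norm_num)
  rw [inner_add_right, inner_smul_right, real_inner_self_eq_norm_sq] at h1 h2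
  have h3 : ‖e‖ ^ 2 = 0 := by linarith
  have h4 : e = 0 := norm_eq_zero.1 (pow_eq_zero_iff two_ne_zero |>.1 h3)
  exact sub_eq_zero.1 h4

theorem norm_lowerSlope_le {C : ℝ} {u : E → ℝ} {U : Set E} {y q : E} {δ A : ℝ}
    (hq : IsLowerSlope C u U y q) (hball : closedBall y δ ⊆ U) (hδ : 0 < δ)
    (hA : ∀ v ∈ closedBall y δ, u v - u y ≤ A) : ‖q‖ ≤ (|A| + |C| * δ ^ 2) / δ := by
  rw [le_div_iff₀ hδ]
  rcases eq_or_ne q 0 with rfl | hq0
  · simp; positivity
  have hn : 0 < ‖q‖ := norm_pos_iff.2 hq0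
  set v : E := y + (δ / ‖q‖) • q with hv
  have hvn : ‖v - y‖ = δ := by simp [hv, norm_smul, abs_of_pos hδ, hn.ne']
  have hvm : v ∈ closedBall y δ := by simp [dist_eq_norm, hvn]
  have h := hq v (hball hvm)
  have hin : ⟪q, v - y⟫_ℝ = ‖q‖ * δ := by
    simp [hv, inner_smul_right, real_inner_self_eq_norm_sq]
    field_simp
  rw [hin, hvn] at h
  have hh := hA v hvm
  have h2 := mul_le_mul_of_nonneg_right (le_abs_self C) (sq_nonneg δ)
  have h3 := mul_nonneg (abs_nonneg C) (sq_nonneg δ)
  linarith [le_abs_self A]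

/-- Differentiability, and continuity of the gradient. -/
theorem hasGradientAt_of_semiconvex {C : ℝ} {u : E → ℝ} {U : Set E} (hU : IsOpen U)
    (hsup : IsInfSuper u U) (hv : ConvexOn ℝ U (fun y => u y + C / 2 * ‖y‖ ^ 2)) {x : E}
    (hx : x ∈ U) :
    HasGradientAt u (gradient u x) x ∧ IsLowerSlope C u U x (gradient u x) ∧
      ContinuousAt (gradient u) x := by
  choose! q hq using fun y (hy : y ∈ U) => exists_lowerSlope hU hv hy
  have hc := continuousOn_of_semiconvex hU hv
  have hmain : ∀ y ∈ U, Tendsto q (𝓝 y) (𝓝 (q y)) ∧ HasGradientAt u (q y) y := by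
    intro y hy
    obtain ⟨δ, hδ, hball⟩ := nhds_basis_closedBall.mem_iff.1 (hU.mem_nhds hy)
    obtain ⟨A, hA⟩ := (isCompact_closedBall y δ).exists_bound_of_continuousOn (hc.mono hball)
    set K : ℝ := (2 * |A| + |C| * (δ / 2) ^ 2) / (δ / 2) with hK
    have hbd : ∀ᶠ a in 𝓝 y, q a ∈ closedBall (0 : E) K := by
      filter_upwards [ball_mem_nhds y (half_pos hδ)] with a ha
      have hab : closedBall a (δ / 2) ⊆ closedBall y δ :=
        closedBall_subset_closedBall' (by linarith [mem_ball.1 ha])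
      have haU : a ∈ U := hball (hab (mem_closedBall_self (by linarith)))
      have hn := norm_lowerSlope_le (A := 2 * |A|) (hq a haU) (hab.trans hball) (half_pos hδ)
        (fun v hv => by
          have h1 := hA v (hab hv)
          have h2 := hA a (hab (mem_closedBall_self (by linarith)))
          rw [Real.norm_eq_abs, abs_le] at h1 h2
          linarith [le_abs_self A])
      rw [abs_of_nonneg (show 0 ≤ 2 * |A| by positivity)] at hn
      simpa [hK] using hn
    have htend : Tendsto q (𝓝 y) (𝓝 (q y)) := by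
      refine (isCompact_closedBall (0 : E) K).tendsto_nhds_of_unique_mapClusterPt hbd
        fun q' _ hcl => lowerSlope_unique hU hsup hy (fun v hvU => ?_) (hq y hy)
      set l : Filter E := 𝓝 y ⊓ comap q (𝓝 q') with hl
      have : NeBot l := by
        have h0 : NeBot (𝓝 q' ⊓ map q (𝓝 y)) := hcl
        rw [← map_neBot_iff q, hl, Filter.push_pull, inf_comm]
        exact h0
      have hqt : Tendsto q l (𝓝 q') := tendsto_comap.mono_left inf_le_right
      have hat : Tendsto (fun a : E => a) l (𝓝 y) := inf_le_left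
      have hut : Tendsto (fun a => u a) l (𝓝 (u y)) :=
        (hc.continuousAt (hU.mem_nhds hy)).tendsto.comp hat
      have hlim : Tendsto (fun a => u a + ⟪q a, v - a⟫_ℝ - C / 2 * ‖v - a‖ ^ 2) l
          (𝓝 (u y + ⟪q', v - y⟫_ℝ - C / 2 * ‖v - y‖ ^ 2)) :=
        (hut.add (hqt.inner (tendsto_const_nhds.sub hat))).sub
          (((tendsto_const_nhds.sub hat).norm.pow 2).const_mul (C / 2))
      refine le_of_tendsto hlim ?_
      filter_upwards [hat.eventually (hU.mem_nhds hy)] with a ha using hq a ha v hvU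
    refine ⟨htend, ?_⟩
    rw [hasGradientAt_iff_isLittleO, Asymptotics.isLittleO_iff]
    intro ε hε
    have h1 : ∀ᶠ a in 𝓝 y, ‖q a - q y‖ < ε / 2 := by
      have := htend.eventually (ball_mem_nhds (q y) (half_pos hε))
      simpa [dist_eq_norm] using this
    have h2 : ∀ᶠ a in 𝓝 y, |C| / 2 * ‖a - y‖ < ε / 2 := by
      refine (show Continuous fun a : E => |C| / 2 * ‖a - y‖ by fun_prop).continuousAt
        |>.eventually_lt continuousAt_const ?_
      simp [hε]
    filter_upwards [h1, h2, hU.mem_nhds hy] with a ha1 ha2 haU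
    have hlo := hq y hy a haU
    have hhi := hq a haU y hy
    rw [norm_sub_rev y a, ← neg_sub a y, inner_neg_right] at hhi
    have hd := abs_le.1 (abs_real_inner_le_norm (q a - q y) (a - y))
    rw [inner_sub_left] at hd
    have hn := norm_nonneg (a - y)
    have t1 := mul_le_mul_of_nonneg_right ha1.le hn
    have t2 := mul_le_mul_of_nonneg_right ha2.le hn
    have t3 := mul_le_mul_of_nonneg_right (le_abs_self C) (sq_nonneg ‖a - y‖)
    have t4 := mul_nonneg hε.le hn
    have t5 := mul_nonneg (abs_nonneg C) (sq_nonneg ‖a - y‖)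
    rw [Real.norm_eq_abs, abs_le]
    constructor <;> linarith
  have hgq : gradient u =ᶠ[𝓝 x] q := by
    filter_upwards [hU.mem_nhds hx] with y hy using (hmain y hy).2.gradient
  rw [hgq.eq_of_nhds]
  exact ⟨(hmain x hx).2, hq x hx,
    (show ContinuousAt q x from (hmain x hx).1).congr hgq.symm⟩

end Vale.Agent.P080
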